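import Mathlib.RingTheory.PowerSeries.Basic
import Mathlib.RingTheory.PowerSeries.Inverse
import Mathlib.RingTheory.Ideal.Operations
import Mathlib.RingTheory.Ideal.Quotient.Basic
import Mathlib.RingTheory.Nilpotent.Basic
import Mathlib.LinearAlgebra.Quotient.Basic
import Mathlib.RingTheory.Nilpotent.Lemmas

/-!
# P241, part F (upper bound): the algebra of the cyclic blue shift

`PSM M` : the module `M⟦X⟧` over `A⟦X⟧`.

`A` is a commutative ring, `J` a nilpotent ideal, `W` a power series with coefficients in `J` below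
`D` and a unit as coefficient of `X ^ D`.

* `smul_injective` : `W` acts injectively on `M⟦X⟧`;
* `exists_X_pow` : `X ^ (D r) ∈ (W)`;
* `eq_zero_of_smul` : if `z m ∈ W M⟦X⟧` and the first coefficient of `z` outside `J` is a unit in
  degree `b < D`, then `m = 0`;
* `blueshift` : the conclusion `v ^ s M ⊆ I M`.
-/

open PowerSeries Finset

set_option linter.unusedSectionVars false

noncomputable section

namespace Vale.Agent.P241.H976

variable {A : Type*} [CommRing A]

/-! ### `M⟦X⟧` -/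

/-- power series with coefficients in a module -/
def PSM (M : Type*) : Type _ := ℕ → M

variable {M : Type*} [AddCommGroup M] [Module A M]

instance : AddCommGroup (PSM M) := inferInstanceAs (AddCommGroup (ℕ → M))

namespace PSM

@[ext] theorem ext {f g : PSM M} (h : ∀ i, f i = g i) : f = g := funext h

@[simp] theorem add_apply (f g : PSM M) (i : ℕ) : (f + g) i = f i + g i := rfl
@[simp] theorem zero_apply (i : ℕ) : (0 : PSM M) i = 0 := rfl
@[simp] theorem neg_apply (f : PSM M) (i : ℕ) : (-f) i = -f i := rfl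
@[simp] theorem sub_apply (f g : PSM M) (i : ℕ) : (f - g) i = f i - g i := rfl

instance : SMul A⟦X⟧ (PSM M) :=
  ⟨fun c f i => ∑ x ∈ antidiagonal i, coeff x.1 c • f x.2⟩

theorem smul_apply (c : A⟦X⟧) (f : PSM M) (i : ℕ) :
    (c • f) i = ∑ x ∈ antidiagonal i, coeff x.1 c • f x.2 := rfl

theorem mul_smul' (c d : A⟦X⟧) (f : PSM M) : (c * d) • f = c • d • f := by
  ext n
  simp only [smul_apply, coeff_mul, Finset.sum_smul, Finset.smul_sum, Finset.sum_sigma']
  apply Finset.sum_nbij' (fun ⟨⟨_i, j⟩, ⟨k, l⟩⟩ ↦ ⟨(k, l + j), (l, j)⟩)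
    (fun ⟨⟨i, _j⟩, ⟨k, l⟩⟩ ↦ ⟨(i + k, l), (i, k)⟩) <;>
    aesop (add simp [add_assoc, mul_smul])

theorem C_smul (a : A) (f : PSM M) (i : ℕ) : ((C a : A⟦X⟧) • f) i = a • f i := by
  rw [smul_apply, Finset.sum_eq_single (0, i)]
  · simp
  · rintro ⟨k, l⟩ h hne
    have hk : k ≠ 0 := by
      rintro rfl
      exact hne (by simp only [mem_antidiagonal] at h; ext <;> simp; omega)
    simp [coeff_C, hk]
  · intro h
    exact absurd (by simp) h

instance : Module A⟦X⟧ (PSM M) where
  one_smul f := by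
    ext i
    have := C_smul (1 : A) f i
    rwa [map_one, one_smul] at this
  mul_smul := mul_smul'
  smul_zero c := by ext i; simp [smul_apply]
  smul_add c f g := by ext i; simp [smul_apply, Finset.sum_add_distrib]
  add_smul c d f := by ext i; simp [smul_apply, add_smul, Finset.sum_add_distrib]
  zero_smul f := by ext i; simp [smul_apply]

/-- the constant series -/
def const (m : M) : PSM M := fun i => if i = 0 then m else 0

theorem smul_const (c : A⟦X⟧) (m : M) (i : ℕ) : (c • const m) i = coeff i c • m := by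
  rw [smul_apply, Finset.sum_eq_single (i, 0)]
  · simp [const]
  · rintro ⟨k, l⟩ h hne
    have hl : l ≠ 0 := by
      rintro rfl
      exact hne (by simp only [mem_antidiagonal] at h; ext <;> simp; omega)
    simp [const, hl]
  · intro h
    exact absurd (by simp) h

theorem X_smul (f : PSM M) (i : ℕ) : ((X : A⟦X⟧) • f) (i + 1) = f i := by
  rw [smul_apply, Finset.sum_eq_single (1, i)]
  · simp
  · rintro ⟨k, l⟩ h hne
    have hk : k ≠ 1 := by
      rintro rfl
      exact hne (by simp only [mem_antidiagonal] at h; ext <;> simp; omega)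
    simp [coeff_X, hk]
  · intro h
    exact absurd (by simp [mem_antidiagonal]; omega) h

theorem X_pow_smul (D : ℕ) (f : PSM M) (i : ℕ) : ((X : A⟦X⟧) ^ D • f) (i + D) = f i := by
  induction D with
  | zero => simp
  | succ D ih => rw [pow_succ', mul_smul, ← add_assoc, X_smul, ih]

theorem X_pow_smul_lt (D : ℕ) (f : PSM M) (i : ℕ) (h : i < D) :
    ((X : A⟦X⟧) ^ D • f) i = 0 := by
  rw [smul_apply]
  refine Finset.sum_eq_zero fun x hx => ?_
  have : x.1 ≠ D := by simp only [mem_antidiagonal] at hx; omega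
  rw [coeff_X_pow, if_neg this, zero_smul]

theorem X_pow_injective (D : ℕ) {f : PSM M} (h : (X : A⟦X⟧) ^ D • f = 0) : f = 0 := by
  ext i
  rw [← X_pow_smul (A := A) D f i, h, zero_apply, zero_apply]

/-- the image in a quotient -/
def map {M' : Type*} [AddCommGroup M'] [Module A M'] (φ : M →ₗ[A] M') (f : PSM M) : PSM M' :=
  fun i => φ (f i)

theorem map_smul {M' : Type*} [AddCommGroup M'] [Module A M'] (φ : M →ₗ[A] M') (c : A⟦X⟧)
    (f : PSM M) : map φ (c • f) = c • map φ f := by
  ext i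
  simp [map, smul_apply]

theorem map_add {M' : Type*} [AddCommGroup M'] [Module A M'] (φ : M →ₗ[A] M')
    (f g : PSM M) : map φ (f + g) = map φ f + map φ g := by
  ext i
  simp [map]

theorem map_const {M' : Type*} [AddCommGroup M'] [Module A M'] (φ : M →ₗ[A] M') (m : M) :
    map φ (const m) = const (φ m) := by
  ext i
  by_cases h : i = 0 <;> simp [map, const, h]

end PSM

/-! ### Coefficients in an ideal -/

/-- all coefficients are in `J` -/
def CoeffIn (J : Ideal A) (c : A⟦X⟧) : Prop := ∀ i, coeff i c ∈ J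

namespace CoeffIn

variable {J : Ideal A} {c d : A⟦X⟧}

theorem zero : CoeffIn J (0 : A⟦X⟧) := fun i => by simp

theorem add (hc : CoeffIn J c) (hd : CoeffIn J d) : CoeffIn J (c + d) := fun i => by
  rw [map_add]; exact J.add_mem (hc i) (hd i)

theorem neg (hc : CoeffIn J c) : CoeffIn J (-c) := fun i => by
  rw [map_neg]; exact J.neg_mem (hc i)

theorem sub (hc : CoeffIn J c) (hd : CoeffIn J d) : CoeffIn J (c - d) := fun i => by
  rw [map_sub]; exact J.sub_mem (hc i) (hd i)

theorem mul {J' : Ideal A} (hc : CoeffIn J c) (hd : CoeffIn J' d) : CoeffIn (J * J') (c * d) :=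
  fun i => by
    rw [coeff_mul]
    exact (J * J').sum_mem fun x _ => Ideal.mul_mem_mul (hc _) (hd _)

theorem mul_right (hc : CoeffIn J c) (d : A⟦X⟧) : CoeffIn J (c * d) := fun i => by
  rw [coeff_mul]
  exact J.sum_mem fun x _ => J.mul_mem_right _ (hc _)

theorem mul_left (hc : CoeffIn J c) (d : A⟦X⟧) : CoeffIn J (d * c) := by
  rw [mul_comm]; exact hc.mul_right d

theorem pow (hc : CoeffIn J c) (n : ℕ) : CoeffIn (J ^ n) (c ^ n) := by
  induction n with
  | zero => intro i; simp
  | succ n ih => rw [pow_succ, pow_succ]; exact ih.mul hc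

theorem mono {J' : Ideal A} (h : J ≤ J') (hc : CoeffIn J c) : CoeffIn J' c := fun i => h (hc i)

theorem eq_zero (hc : CoeffIn (⊥ : Ideal A) c) : c = 0 := by
  ext i; simpa using hc i

theorem pow_eq_zero {r : ℕ} (hJ : J ^ r = ⊥) (hc : CoeffIn J c) : c ^ r = 0 :=
  eq_zero (hJ ▸ hc.pow r)

theorem smul_mem (hc : CoeffIn J c) {N : Submodule A M} (f : PSM M) (hf : ∀ i, f i ∈ N) (i : ℕ) :
    (c • f) i ∈ J • N := by
  rw [PSM.smul_apply]
  exact Submodule.sum_mem _ fun x _ => Submodule.smul_mem_smul (hc _) (hf _)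

end CoeffIn

/-! ### Weierstrass series -/

/-- `W` has coefficients in `J` below `D`, its coefficient in degree `D` is a unit. -/
structure Lead (J : Ideal A) (D : ℕ) (W : A⟦X⟧) : Prop where
  low : ∀ i < D, coeff i W ∈ J
  unit : IsUnit (coeff D W)

variable {J : Ideal A} {D : ℕ} {W : A⟦X⟧}

theorem Lead.decomp (h : Lead J D W) : ∃ W₀ U : A⟦X⟧, CoeffIn J W₀ ∧ IsUnit U ∧
    W = W₀ + X ^ D * U := by
  refine ⟨PowerSeries.mk fun i => if i < D then coeff i W else 0,
    PowerSeries.mk fun i => coeff (i + D) W, ?_, ?_, ?_⟩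
  · intro i
    rw [coeff_mk]
    split_ifs with hi
    · exact h.low i hi
    · exact J.zero_mem
  · rw [PowerSeries.isUnit_iff_constantCoeff, ← coeff_zero_eq_constantCoeff_apply, coeff_mk,
      zero_add]
    exact h.unit
  · ext i
    rw [map_add, coeff_mk, coeff_X_pow_mul']
    by_cases hi : i < D
    · rw [if_pos hi, if_neg (by omega), add_zero]
    · rw [if_neg hi, if_pos (by omega), coeff_mk, zero_add, Nat.sub_add_cancel (by omega)]

theorem Lead.exists_X_pow (h : Lead J D W) {r : ℕ} (hJ : J ^ r = ⊥) :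
    ∃ G : A⟦X⟧, (X : A⟦X⟧) ^ (D * r) = W * G := by
  obtain ⟨W₀, U, h0, ⟨U, rfl⟩, rfl⟩ := h.decomp
  have h1 : (W₀ + X ^ D * (U : A⟦X⟧)) ∣ (X ^ D * (U : A⟦X⟧)) ^ r := by
    have h2 := sub_dvd_pow_sub_pow (X ^ D * (U : A⟦X⟧)) (-W₀) r
    rw [neg_pow, h0.pow_eq_zero hJ, mul_zero, sub_zero, sub_neg_eq_add, add_comm] at h2
    exact h2
  obtain ⟨G, hG⟩ := h1
  refine ⟨G * ((U⁻¹ : A⟦X⟧ˣ) : A⟦X⟧) ^ r, ?_⟩
  rw [← mul_assoc, ← hG, mul_pow, mul_assoc, ← mul_pow, Units.mul_inv, one_pow, mul_one, pow_mul]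

theorem Lead.smul_injective (h : Lead J D W) {r : ℕ} (hJ : J ^ r = ⊥) {f : PSM M}
    (hf : W • f = 0) : f = 0 := by
  obtain ⟨G, hG⟩ := h.exists_X_pow hJ
  refine PSM.X_pow_injective (A := A) (D * r) ?_
  rw [hG, mul_comm, mul_smul, hf, smul_zero]

theorem Lead.mem_of_smul_mem (h : Lead J D W) {r : ℕ} (hJ : J ^ r = ⊥) {f : PSM M}
    (N : Submodule A M) (hf : ∀ i, (W • f) i ∈ N) (i : ℕ) : f i ∈ N := by
  have h1 : W • PSM.map N.mkQ f = 0 := by
    rw [← PSM.map_smul]
    ext i
    exact (Submodule.Quotient.mk_eq_zero N).2 (hf i)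
  have h2 := congrFun (h.smul_injective hJ h1) i
  exact (Submodule.Quotient.mk_eq_zero N).1 h2

/-- If `z m ∈ W M⟦X⟧` with `z` of leading degree `b < D`, then `m = 0`. -/
theorem Lead.eq_zero_of_smul (h : Lead J D W) {r : ℕ} (hJ : J ^ r = ⊥) {b : ℕ} (hb : b < D)
    {z : A⟦X⟧} (hz : Lead J b z) {m : M} {f : PSM M} (hf : z • PSM.const m = W • f) : m = 0 := by
  have key : ∀ j : ℕ, m ∈ (J ^ j • ⊤ : Submodule A M) := by
    intro j
    induction j with
    | zero => simp
    | succ j ih =>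
      set N : Submodule A M := J ^ j • ⊤ with hN
      have hN' : (J ^ (j + 1) • ⊤ : Submodule A M) = J • N := by
        rw [hN, pow_succ', Submodule.mul_smul]
      have hc : ∀ i, PSM.const m i ∈ N := by
        intro i
        by_cases hi : i = 0 <;> simp [PSM.const, hi, ih]
      have hfN : ∀ i, f i ∈ N := by
        refine h.mem_of_smul_mem hJ N fun i => ?_
        rw [← hf, PSM.smul_const]
        exact N.smul_mem _ ih
      obtain ⟨W₀, U, h0, -, rfl⟩ := h.decomp
      have h1 := congrFun hf b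
      rw [PSM.smul_const, add_smul, PSM.add_apply, mul_smul, PSM.X_pow_smul_lt D _ b hb,
        add_zero] at h1
      rw [hN']
      obtain ⟨ε, hε⟩ := hz.unit
      have h2 : coeff b z • m ∈ J • N := by rw [h1]; exact h0.smul_mem f hfN b
      have h3 : ((ε⁻¹ : Aˣ) : A) • coeff b z • m ∈ J • N := (J • N).smul_mem _ h2
      have h4 : ((ε⁻¹ : Aˣ) : A) • coeff b z • m = m := by
        rw [← hε, ← mul_smul, Units.inv_mul, one_smul]
      rwa [h4] at h3
  have := key r
  rwa [hJ, Submodule.bot_smul, Submodule.mem_bot] at this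

/-! ### The main statement, nilpotent form -/

/-- **The algebra of the blue shift.** `I ≤ J` ideals, `J` nilpotent, `α` a series of leading degree
`a`, `W = α ^ q (v + α ^ q h)` modulo `I`, of leading degree `D > q a`, and `α ^ e m` is divisible
by `W` modulo every power of `X`. If `e ≤ q (s + 1)` then `v ^ s m ∈ I M`. -/
theorem blueshift {I : Ideal A} {r : ℕ} (hJ : J ^ r = ⊥) {α h : A⟦X⟧} {v : A} {q b e s : ℕ}
    (hq : Lead J b (α ^ q)) (hD : b < D) (hWl : Lead J D W)
    (hW : CoeffIn I (W - α ^ q * (C v + α ^ q * h))) (he : e ≤ q * (s + 1))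
    (hM : ∀ m : M, ∀ N : ℕ, ∃ f g : PSM M, α ^ e • PSM.const m = W • f + (X : A⟦X⟧) ^ N • g)
    (m : M) : v ^ s • m ∈ (I • ⊤ : Submodule A M) := by
  set Q := M ⧸ (I • ⊤ : Submodule A M)
  set π : M →ₗ[A] Q := (I • ⊤ : Submodule A M).mkQ
  -- `W` acts on `Q⟦X⟧` as `α ^ q (v + α ^ q h)`
  have hQ : ∀ x : PSM Q, (W - α ^ q * (C v + α ^ q * h)) • x = 0 := by
    intro x
    ext i
    rw [PSM.smul_apply]
    refine Finset.sum_eq_zero fun y _ => ?_
    obtain ⟨x', hx'⟩ := Submodule.mkQ_surjective (I • ⊤ : Submodule A M) (x y.2)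
    rw [← hx', ← map_smul]
    exact (Submodule.Quotient.mk_eq_zero _).2 (Submodule.smul_mem_smul (hW _) trivial)
  have hQ2 : ∀ x : PSM Q, (α ^ q * C v) • x = W • x - (α ^ q * (α ^ q * h)) • x := by
    intro x
    have := hQ x
    rw [sub_smul, sub_eq_zero, mul_add, add_smul] at this
    rw [this]; abel
  -- induction
  have hQ3 : ∀ (j : ℕ) (x : PSM Q), ∃ y : PSM Q,
      (α ^ q * C v ^ j) • x = W • y + (α ^ (q * (j + 1)) * (-h) ^ j) • x := by
    intro j
    induction j with
    | zero => intro x; exact ⟨0, by simp⟩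
    | succ j ih =>
      intro x
      obtain ⟨y, hy⟩ := ih (C v • x)
      refine ⟨y + (α ^ (q * j) * (-h) ^ j) • x, ?_⟩
      have e1 : (α ^ q * C v ^ (j + 1)) • x = (α ^ q * C v ^ j) • C v • x := by
        rw [← mul_smul]; congr 1; ring
      have e2 : (α ^ (q * (j + 1)) * (-h) ^ j) • C v • x =
          (α ^ (q * j) * (-h) ^ j) • (α ^ q * C v) • x := by
        rw [← mul_smul, ← mul_smul]; congr 1; ring
      rw [e1, hy, e2, hQ2, smul_sub, smul_add, smul_comm W, ← mul_smul, ← add_sub_assoc,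
        sub_eq_add_neg, ← neg_smul]
      congr 1
      rw [← mul_smul]
      congr 1
      ring
  obtain ⟨G, hG⟩ := hWl.exists_X_pow hJ
  obtain ⟨y, hy⟩ := hQ3 s (PSM.const (π m))
  obtain ⟨f, g, hfg⟩ := hM m (D * r)
  have hfg' := congrArg (PSM.map π) hfg
  rw [PSM.map_smul, PSM.map_const, PSM.map_add, PSM.map_smul, PSM.map_smul, hG, mul_smul,
    ← smul_add] at hfg'
  have h3 : (α ^ (q * (s + 1)) * (-h) ^ s) • PSM.const (π m) =
      W • (α ^ (q * (s + 1) - e) * (-h) ^ s) • (PSM.map π f + G • PSM.map π g) := by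
    rw [smul_comm W, ← hfg', ← mul_smul]
    congr 1
    have : q * (s + 1) = (q * (s + 1) - e) + e := by omega
    rw [mul_right_comm, ← pow_add, ← this]
  have h4 : α ^ q • PSM.const (v ^ s • π m) =
      W • (y + (α ^ (q * (s + 1) - e) * (-h) ^ s) • (PSM.map π f + G • PSM.map π g)) := by
    rw [smul_add, ← h3, ← hy, mul_smul]
    congr 1
    ext i
    rw [← map_pow, PSM.C_smul]
    by_cases hi : i = 0 <;> simp [PSM.const, hi]
  have h5 := hWl.eq_zero_of_smul hJ hD hq h4
  rw [← map_smul] at h5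
  exact (Submodule.Quotient.mk_eq_zero _).1 h5

end Vale.Agent.P241.H976
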